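import Vale.Agent.Lib.P262.Stay

namespace Vale.Agent.Lib.P262

/-- Elementary inequality `(u + e)^2 ≤ (1 + lam) u^2 + (1 + 1/lam) e^2`. -/
theorem sq_add_le_lam (u e lam : ℝ) (hlam : 0 < lam) :
    (u + e) ^ 2 ≤ (1 + lam) * u ^ 2 + (1 + 1 / lam) * e ^ 2 := by
  have h1 : 0 ≤ (lam * u - e) ^ 2 / lam := by positivity
  have h2 : (lam * u - e) ^ 2 / lam = lam * u ^ 2 - 2 * u * e + e ^ 2 / lam := by
    field_simp
    ring
  have h3 : (1 + 1 / lam) * e ^ 2 = e ^ 2 + e ^ 2 / lam := by ring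
  rw [h3]
  nlinarith [h1, h2]

/-- Rounding: a signing that stays in a real disc of squared radius `ρ2` along the scaled
lattice steps `V / M` gives a signing of the integer steps staying in the integer disc of
squared radius `K`. Contrapositive form. -/
theorem lattice_kill (M K : ℕ) (hM : 0 < M) (V : List (ℤ × ℤ)) (ρ2 lam : ℝ) (hlam : 0 < lam)
    (hK : (1 + lam) * (M : ℝ) ^ 2 * ρ2 + (1 + 1 / lam) / 2 ≤ (K : ℝ))
    (h : ∀ Z0 : ℤ × ℤ, ¬ Stay (fun Z : ℤ × ℤ => Z.1 ^ 2 + Z.2 ^ 2 ≤ (K : ℤ)) V Z0) :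
    ∀ c x : ℝ × ℝ, ¬ Stay (fun p : ℝ × ℝ => (p.1 - c.1) ^ 2 + (p.2 - c.2) ^ 2 ≤ ρ2)
      (V.map (fun v : ℤ × ℤ => ((v.1 : ℝ) / M, (v.2 : ℝ) / M))) x := by
  intro c x hS
  have hMpos : (0 : ℝ) < M := by exact_mod_cast hM
  have hMne : (M : ℝ) ≠ 0 := ne_of_gt hMpos
  set ψ : ℤ × ℤ → ℝ × ℝ := fun v => ((v.1 : ℝ) / M, (v.2 : ℝ) / M) with hψ
  have hadd : ∀ a b, ψ (a + b) = ψ a + ψ b := by
    intro a b
    simp only [hψ, Prod.fst_add, Prod.snd_add, Int.cast_add, Prod.mk_add_mk, add_div]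
  have hsub : ∀ a b, ψ (a - b) = ψ a - ψ b := by
    intro a b
    simp only [hψ, Prod.fst_sub, Prod.snd_sub, Int.cast_sub, Prod.mk_sub_mk, sub_div]
  have h0 : ψ 0 = 0 := by
    simp [hψ]
  have h1 : Stay (fun z : ℝ × ℝ => ((x + z).1 - c.1) ^ 2 + ((x + z).2 - c.2) ^ 2 ≤ ρ2)
      (V.map ψ) (ψ 0) := by
    rw [h0]
    apply Stay.translate (P := fun p : ℝ × ℝ => (p.1 - c.1) ^ 2 + (p.2 - c.2) ^ 2 ≤ ρ2) x
    rwa [add_zero]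
  have h2 := Stay.of_map ψ hadd hsub h1
  set C : ℤ × ℤ := (round ((M : ℝ) * (c.1 - x.1)), round ((M : ℝ) * (c.2 - x.2))) with hC
  have h3 : Stay (fun Z : ℤ × ℤ => (-C + Z).1 ^ 2 + (-C + Z).2 ^ 2 ≤ (K : ℤ)) V 0 := by
    apply Stay.mono _ h2
    intro Z hZ
    simp only [hψ, Prod.fst_add, Prod.snd_add] at hZ
    simp only [Prod.fst_add, Prod.snd_add, Prod.fst_neg, Prod.snd_neg, hC]
    have e1 := abs_sub_round ((M : ℝ) * (c.1 - x.1))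
    have e2 := abs_sub_round ((M : ℝ) * (c.2 - x.2))
    set r1 : ℤ := round ((M : ℝ) * (c.1 - x.1)) with hr1
    set r2 : ℤ := round ((M : ℝ) * (c.2 - x.2)) with hr2
    set a1 : ℝ := (M : ℝ) * (c.1 - x.1) with ha1
    set a2 : ℝ := (M : ℝ) * (c.2 - x.2) with ha2
    have e1' : (a1 - r1) ^ 2 ≤ 1 / 4 := by
      have := abs_le.1 e1
      nlinarith [this.1, this.2]
    have e2' : (a2 - r2) ^ 2 ≤ 1 / 4 := by
      have := abs_le.1 e2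
      nlinarith [this.1, this.2]
    have hu : ((Z.1 : ℝ) - a1) ^ 2 + ((Z.2 : ℝ) - a2) ^ 2 ≤ (M : ℝ) ^ 2 * ρ2 := by
      have k1 : (Z.1 : ℝ) - a1 = (M : ℝ) * (x.1 + (Z.1 : ℝ) / M - c.1) := by
        rw [ha1]; field_simp; ring
      have k2 : (Z.2 : ℝ) - a2 = (M : ℝ) * (x.2 + (Z.2 : ℝ) / M - c.2) := by
        rw [ha2]; field_simp; ring
      rw [k1, k2]
      have : ((M : ℝ) * (x.1 + (Z.1 : ℝ) / M - c.1)) ^ 2 + ((M : ℝ) * (x.2 + (Z.2 : ℝ) / M - c.2)) ^ 2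
          = (M : ℝ) ^ 2 * ((x.1 + (Z.1 : ℝ) / M - c.1) ^ 2 + (x.2 + (Z.2 : ℝ) / M - c.2) ^ 2) := by
        ring
      rw [this]
      exact mul_le_mul_of_nonneg_left hZ (by positivity)
    have s1 := sq_add_le_lam ((Z.1 : ℝ) - a1) (a1 - r1) lam hlam
    have s2 := sq_add_le_lam ((Z.2 : ℝ) - a2) (a2 - r2) lam hlam
    have hlam' : 0 ≤ 1 + 1 / lam := by positivity
    have t1 : (1 + 1 / lam) * (a1 - r1) ^ 2 ≤ (1 + 1 / lam) * (1 / 4) :=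
      mul_le_mul_of_nonneg_left e1' hlam'
    have t2 : (1 + 1 / lam) * (a2 - r2) ^ 2 ≤ (1 + 1 / lam) * (1 / 4) :=
      mul_le_mul_of_nonneg_left e2' hlam'
    have t3 : (1 + lam) * (((Z.1 : ℝ) - a1) ^ 2 + ((Z.2 : ℝ) - a2) ^ 2)
        ≤ (1 + lam) * ((M : ℝ) ^ 2 * ρ2) :=
      mul_le_mul_of_nonneg_left hu (by linarith)
    have goalR : ((-(r1 : ℝ) + (Z.1 : ℝ)) ^ 2 + (-(r2 : ℝ) + (Z.2 : ℝ)) ^ 2) ≤ (K : ℝ) := by
      have q1 : -(r1 : ℝ) + (Z.1 : ℝ) = ((Z.1 : ℝ) - a1) + (a1 - r1) := by ring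
      have q2 : -(r2 : ℝ) + (Z.2 : ℝ) = ((Z.2 : ℝ) - a2) + (a2 - r2) := by ring
      rw [q1, q2]
      nlinarith [s1, s2, t1, t2, t3, hK]
    exact_mod_cast goalR
  have h4 := Stay.untranslate (P := fun Z : ℤ × ℤ => Z.1 ^ 2 + Z.2 ^ 2 ≤ (K : ℤ)) (-C) h3
  exact h _ h4

end Vale.Agent.Lib.P262
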